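import Vale.Agent.P352X.R.CONT.A

/-!
# P352X, row CONT, part B: the mirror, and the limits of the faces (helper34)
-/

set_option linter.all false

open MeasureTheory Filter Topology
open scoped SchwartzMap ComplexConjugate ENNReal ContDiff

namespace Vale.Agent.P352X

open Vale.Agent.P352 Vale.Agent.P352.GF Vale.Agent.P352.BW Vale.Agent.P352.H246
open Vale.Agent.P352.H496 Vale.Agent.P352.H755 Vale.Agent.P352.H15
open UniformSpace (Completion)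
open Far

noncomputable section

namespace Cont

/-! ### mirror images of test functions -/

/-- `f(-al, x)` -/
def mj (f : P3 → ℝ) : P3 → ℝ := fun y => f (-y.1, y.2)
/-- `ρ(-t)` -/
def ng (ρ : ℝ → ℝ) : ℝ → ℝ := fun t => ρ (-t)

lemma tst_mj {f : P3 → ℝ} (hf : Tst f) : Tst (mj f) :=
  ⟨hf.1.comp (contDiff_fst.neg.prodMk contDiff_snd),
    hf.2.comp_homeomorph ((Homeomorph.neg ℝ).prodCongr (Homeomorph.refl R2))⟩

lemma cut_mj {κ : P3 → ℝ} (h : Cut κ) : Cut (mj κ) := by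
  refine ⟨tst_mj h.1, ?_⟩
  have : Tendsto (fun y : P3 => ((-y.1, y.2) : P3)) (𝓝 0) (𝓝 0) :=
    (continuous_fst.neg.prodMk continuous_snd).tendsto' 0 0 (by simp)
  exact this.eventually h.2

lemma tst_ng {ρ : ℝ → ℝ} (h : Tst ρ) : Tst (ng ρ) :=
  ⟨h.1.comp contDiff_neg, h.2.comp_homeomorph (Homeomorph.neg ℝ)⟩

lemma supp_ng {ρ : ℝ → ℝ} {t : ℝ} (h : t ∈ tsupport (ng ρ)) : -t ∈ tsupport ρ :=
  closure_minimal (s := Function.support (ng ρ)) (t := {t | -t ∈ tsupport ρ})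
    (fun t ht => subset_tsupport ρ ht) ((isClosed_tsupport ρ).preimage continuous_neg) h

lemma ng_ng (ρ : ℝ → ℝ) : ng (ng ρ) = ρ := funext fun t => congrArg ρ (neg_neg t)

lemma blw_eq (θ1 : ℝ → ℝ) {θ : ℝ → ℝ} (h : Bump θ) (δ : ℝ) :
    blw θ1 θ δ = ng (abv (ng θ1) θ δ) := by
  funext t
  simp only [blw, ng, abv, neg_neg, neg_pos, neg_div, h.2.1]

lemma pr_jr (f : P3 → ℝ) (φ : ℝ → ℝ) : (bar fun z => pr f φ (jr z)) = pr (mj f) (ng φ) := by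
  funext z
  simp only [bar, pr, mj, ng, pl, al_jr, be_jr, tx_jr, Complex.star_def, Complex.conj_ofReal]

lemma pf0_jr (W : R2 → ℝ) (κ f : P3 → ℝ) (ρ θ1 : ℝ → ℝ) (δ L : ℝ) (x y : V) :
    pf0 W (mj κ) (mj f) (ng ρ) (ng θ1) δ L (x, y) = conj (pf0 W κ f ρ θ1 δ L (jr x, jr y)) := by
  simp only [pf0, mj, ng, kL, dlt, pl, al_jr, be_jr, tx_jr, Complex.conj_ofReal, neg_div]

lemma slab {φ : ℝ → ℝ} (hφ : Tst φ) (h : tsupport φ ⊆ Set.Iio 0) :
    ∃ b1 b2 : ℝ, b2 < 0 ∧ tsupport φ ⊆ Set.Icc b1 b2 := by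
  obtain ⟨a, ha, h1⟩ := hφ.2.isCompact.exists_forall_le' (f := fun t => -t)
    continuous_neg.continuousOn (a := 0) fun t ht => neg_pos.2 (h ht)
  obtain ⟨b, hb⟩ := hφ.2.isCompact.bddBelow
  exact ⟨b, -a, neg_lt_zero.2 ha, fun t ht => ⟨hb ht, le_neg.1 (h1 t ht)⟩⟩

lemma slab' {φ : ℝ → ℝ} (hφ : Tst φ) (h : tsupport φ ⊆ Set.Ioi 0) :
    ∃ b1 b2 : ℝ, 0 < b1 ∧ tsupport φ ⊆ Set.Icc b1 b2 := by
  obtain ⟨a, ha, h1⟩ := hφ.2.isCompact.exists_forall_le' (f := fun t => t)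
    continuousOn_id (a := 0) h
  obtain ⟨b, hb⟩ := hφ.2.isCompact.bddAbove
  exact ⟨a, b, ha, fun t ht => ⟨h1 t ht, hb ht⟩⟩

/-! ### the modular conjugation -/

lemma gsym {H : Type*} [NormedAddCommGroup H] [InnerProductSpace ℂ H] [CompleteSpace H]
    {W : ℝ → H →L[ℂ] H} (h0 : W 0 = 1) (hu : ∀ t, W t ∈ unitary (H →L[ℂ] H)) {x y : H}
    (hx : Dm W x) (hy : Dm W y) : inner ℂ x (gen W y) = inner ℂ (gen W x) y := by
  have h1 := HasDerivAt.inner ℂ hx.gn hy.gn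
  simp only [inner_unitary (hu _), h0, ContinuousLinearMap.one_apply, inner_smul_left,
    inner_smul_right, Complex.conj_I] at h1
  have h2 := h1.unique (hasDerivAt_const _ _)
  exact mul_left_cancel₀ Complex.I_ne_zero (by linear_combination h2)

variable {D : Type*} [NormedAddCommGroup D] [InnerProductSpace ℂ D] {c : Ctx D}

lemma J_inner (x y : Completion D) : inner ℂ (c.J x) (c.J y) = inner ℂ y x :=
  c.E.inner_J_J x y

lemma J_Th (hj : JC c) {f : Fn} (hf : IsTest f) :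
    c.J (c.Th f) = c.Th (bar fun z => f (jr z)) := by
  simp only [Th_eq, map_sum, map_smulₛₗ, hj.one _ _ _ hf, sj_sq, Complex.conj_ofReal,
    Complex.ofReal_one, one_smul]

lemma J_pr (hj : JC c) {f : P3 → ℝ} {φ : ℝ → ℝ} (hf : Tst f) (hφ : Tst φ) :
    c.J (c.Th (pr f φ)) = c.Th (pr (mj f) (ng φ)) := by
  rw [J_Th hj (isTest_dc (dc_pr hf hφ)), pr_jr]

lemma J_w0 {w : I2 → I2 → S2 →L[ℂ] Completion D} (hw : ∀ K M (F G : S2),
    (∀ x y, G (x, y) = conj (F (jr x, jr y))) →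
      w K M G = ((sj K.1 * sj K.2 * (sj M.1 * sj M.2) : ℝ) : ℂ) • c.J (c.wp K M F))
    {F G : S2} (e : ∀ x y, G (x, y) = conj (F (jr x, jr y))) : w0 w G = c.J (w0 c.wp F) := by
  simp only [w0, map_sum, map_smulₛₗ, hw _ _ F G e, sj_sq, Complex.conj_ofReal, smul_smul,
    ← Complex.ofReal_mul]
  refine Finset.sum_congr rfl fun k _ => Finset.sum_congr rfl fun l _ =>
    Finset.sum_congr rfl fun n _ => ?_
  have h : ∀ k, va k * sj k = -va k := fun k => by fin_cases k <;> simp [va, sj]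
  congr 2
  linear_combination (eta k * eta l * eta n * (va l * sj l)) * h k -
    (eta k * eta l * eta n * va k) * h l

lemma sim_bas (L : Ix → V) (m : Ix) : sim 1 L 0 (GF.one m) = L m := by
  funext n
  simp [sim, GF.one, bas]

lemma jr_zero : jr 0 = 0 := null_ext (by simp) (by simp) (by simp)

lemma J_ug (hj : JC c) {L L' : Ix → V} {a a' : V} (hL : IsLor L) (ha : jr a = a')
    (e : ∀ z, sim 1 L' 0 (jr z) = jr (sim 1 L 0 z)) (z : Completion D) :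
    c.J (Ug c.Q 1 L a z) = Ug c.Q 1 L' a' (c.J z) := by
  have : jL L = L' := funext fun m => by
    rw [← sim_bas (jL L), ← sim_bas L', ← jr_jr (GF.one m), e, ← (hj.lor L hL).2, jr_zero]
  rw [hj.ug _ _ _ _ one_pos hL, this, ha]

lemma J_Mi (hg : GRP c) (hj : JC c) (i : Fin 2) (t : ℝ) (z : Completion D) :
    c.J (Mi c.Q i t z) = Mi c.Q i (-t) (c.J z) := by
  refine J_ug hj (hg.lga _).1 jr_zero (fun z => ?_) z
  rw [(hg.lga _).2, (hg.lga _).2]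
  refine null_ext ?_ (by simp) (by simp)
  simp only [al_gap, al_jr, be_jr, tx_jr, neg_smul, d2_neg, d2_neg_l]
  ring

lemma J_Pa (hj : JC c) (t : ℝ) (z : Completion D) :
    c.J (Pa c.Q t z) = Pa c.Q (-t) (c.J z) := by
  have e : ∀ z, sim 1 GF.one 0 z = z := fun z => funext fun n => by simp [sim, GF.one, bas]
  exact J_ug hj H496.isLor_one (null_ext (by simp) (by simp) (by simp)) (fun z => by rw [e, e]) z

lemma mir {W : ℝ → Completion D →L[ℂ] Completion D} (h0 : W 0 = 1)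
    (hu : ∀ t, W t ∈ unitary (Completion D →L[ℂ] Completion D))
    (hJ : ∀ t z, c.J (W t z) = W (-t) (c.J z)) {x y : Completion D} (hx : Dm W x) (hy : Dm W y) :
    inner ℂ (c.J x) (gen W (c.J y)) = inner ℂ y (gen W x) := by
  rw [(hy.gn.anti_neg c.J fun t => hJ t y).gen_eq, J_inner, gsym h0 hu hy hx]

lemma dm_SK (hg : GRP c) (hk' : KD c) {f : P3 → ℝ} {φ : ℝ → ℝ} (hf : Tst f) (hφ : Tst φ)
    (h : tsupport φ ⊆ Set.Iio 0 ∨ tsupport φ ⊆ Set.Ioi 0) : Dm c.SK (c.Th (pr f φ)) := by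
  obtain ⟨b1, b2, h1, h2⟩ : ∃ b1 b2 : ℝ, (b2 < 0 ∨ 0 < b1) ∧ tsupport φ ⊆ Set.Icc b1 b2 := by
    rcases h with h | h
    · obtain ⟨b1, b2, h1, h2⟩ := slab hφ h
      exact ⟨b1, b2, .inl h1, h2⟩
    · obtain ⟨b1, b2, h1, h2⟩ := slab' hφ h
      exact ⟨b1, b2, .inr h1, h2⟩
  obtain ⟨m, C, H⟩ := hk'.slab b1 b2 h1
  have hd := dc_pr hf hφ
  have key : ∀ h k, Dm c.SK (c.Tv (hk h k (pr f φ))) := fun h k => by
    have := (H h k (sch (pr f φ)) (by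
      rw [sch_coe hd]
      exact fun z hz => h2 (tsupport_pr _ _ hz).2)).1
    rwa [ev, sch_coe hd] at this
  have e : c.Th (pr f φ) = (2 : ℂ) • c.Tv (hk va vb (pr f φ)) -
      ∑ i, c.Tv (hk (ex i) (ex i) (pr f φ)) := by
    rw [Ctx.Th, hg.trace _ _ (isTest_dc hd)]
    change Completion.toComplL (𝕜 := ℂ) _ = _
    simp only [map_sub, map_sum, map_smul]
    rfl
  rw [e]
  exact ((key _ _).smul 2).sub (Dm.sum _ fun i _ => key _ _)

/-- the mirror image of the plane form -/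
theorem PF_mir (h : T2 c) {f g : P3 → ℝ} {α β : ℝ → ℝ} (hf : Tst f) (hg : Tst g) (hα : Tst α)
    (hβ : Tst β) (sα : tsupport α ⊆ Set.Iio 0) (sβ : tsupport β ⊆ Set.Ioi 0) :
    c.PF (pr g β) (pr f α) = c.PF (pr (mj f) (ng α)) (pr (mj g) (ng β)) := by
  have dM : ∀ i {f : P3 → ℝ} {φ : ℝ → ℝ}, Tst f → Tst φ → Dm (Mi c.Q i) (c.Th (pr f φ)) :=
    fun i _ _ hf hφ => (h.gen.mith i _ (isTest_dc (dc_pr hf hφ))).dm
  have dP : ∀ {f : P3 → ℝ} {φ : ℝ → ℝ}, Tst f → Tst φ → Dm (Pa c.Q) (c.Th (pr f φ)) :=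
    fun hf hφ => (h.gen.uth va _ (isTest_dc (dc_pr hf hφ))).dm
  have mM : ∀ i {x y}, Dm (Mi c.Q i) x → Dm (Mi c.Q i) y →
      inner ℂ (c.J x) (gen (Mi c.Q i) (c.J y)) = inner ℂ y (gen (Mi c.Q i) x) := fun i _ _ =>
    mir ((congrArg (Ga c.Q) (zero_smul _ _)).trans h.grp.ga0) (fun t => h.grp.uni _ _ _) (J_Mi h.grp h.jc i)
  have mP : ∀ {x y}, Dm (Pa c.Q) x → Dm (Pa c.Q) y →
      inner ℂ (c.J x) (gen (Pa c.Q) (c.J y)) = inner ℂ y (gen (Pa c.Q) x) :=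
    mir ((congrArg (Ut c.Q) (zero_smul _ _)).trans h.grp.ut0) (fun t => h.grp.uni _ _ _) (J_Pa h.jc)
  have e : ∀ i (f : P3 → ℝ), xi i (mj f) = mj (xi i f) := fun _ _ => rfl
  rw [PF_pr, PF_pr]
  simp only [e, ← J_pr h.jc hf hα, ← J_pr h.jc hg hβ, ← J_pr h.jc (tst_xi hf _) hα,
    ← J_pr h.jc (tst_xi hg _) hβ]
  rw [mir (c.hS.zero va null_va) (fun t => h.grp.S_uni va t null_va) h.jc.S
    (dm_SK h.grp h.kd hf hα (.inl sα)) (dm_SK h.grp h.kd hg hβ (.inr sβ))]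
  congr 1
  · congr 1
    refine Finset.sum_congr rfl fun i _ => ?_
    rw [mM i (dM i (tst_xi hf i) hα) (dM i hg hβ), mM i (dM i hf hα) (dM i (tst_xi hg i) hβ),
      add_comm]
  · exact Finset.sum_congr rfl fun i _ => (mP (dP (tst_xi hf i) hα) (dP (tst_xi hg i) hβ)).symm

/-! ### the faces -/

/-- a step from zero to one on `[-3 u, -2 u]` -/
def st (u t : ℝ) : ℝ := Real.smoothTransition (t / u + 3)

lemma smooth_st (u : ℝ) : ContDiff ℝ ∞ (st u) :=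
  Real.smoothTransition.contDiff.comp ((contDiff_id.div_const u).add contDiff_const)

lemma st_lo {u t : ℝ} (hu : 0 < u) (h : t ≤ -3 * u) : st u t = 0 :=
  Real.smoothTransition.zero_of_nonpos (by
    have := (div_le_iff₀ hu).2 h
    linarith)

lemma st_hi {u t : ℝ} (hu : 0 < u) (h : -2 * u ≤ t) : st u t = 1 :=
  Real.smoothTransition.one_of_one_le (by
    have := (le_div_iff₀ hu).2 h
    linarith)

/-- the splitting of the profile of the first leg -/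
lemma cutθ {θ1 : ℝ → ℝ} (h1 : Tst θ1) {u : ℝ} (hu : 0 < u) : ∃ θ2 θ3 : ℝ → ℝ, Tst θ2 ∧ Tst θ3 ∧
    (∀ t, θ1 t = θ2 t + θ3 t) ∧ tsupport θ2 ⊆ Set.Ici (-3 * u) ∧ tsupport θ3 ⊆ Set.Iio (-u) ∧
      ∀ θ δ, abv θ2 θ δ = abv θ1 θ δ := by
  refine ⟨fun t => θ1 t * st u t, fun t => θ1 t * (1 - st u t),
    ⟨h1.1.mul (smooth_st u), h1.2.mul_right⟩,
    ⟨h1.1.mul (contDiff_const.sub (smooth_st u)), h1.2.mul_right⟩, fun t => by ring,
    closure_minimal (fun t ht => ?_) isClosed_Ici,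
    (closure_minimal (t := Set.Iic (-2 * u)) (fun t ht => ?_) isClosed_Iic).trans
      (Set.Iic_subset_Iio.2 (by linarith)), fun θ δ => funext fun t => ?_⟩
  · by_contra h
    exact right_ne_zero_of_mul ht (st_lo hu (not_le.1 h).le)
  · by_contra h
    exact right_ne_zero_of_mul ht (by rw [st_hi hu (not_le.1 h).le, sub_self])
  · unfold abv
    split_ifs with h
    · beta_reduce
      rw [st_hi hu (by linarith), mul_one]
    · rfl

section face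

variable {κ f g : P3 → ℝ} {ρ θ1 θ φ : ℝ → ℝ}

theorem lo1 [Fact c.tp] (hF : FAR c) (hM : CONM c) (hK : CONK c) (hκ : Cut κ) (hf : Tst f) (hg : Tst g)
    (hρ : Tst ρ) (hρ' : tsupport ρ ⊆ Set.Icc (-1 / 2) (1 / 2)) (h1 : Tst θ1) (hθ : Bump θ)
    (hφ : Tst φ) (hφ' : tsupport φ ⊆ Set.Iio 0) :
    Apx (fun δ L => c.t0 (triF κ f g ρ θ1 φ δ L))
      fun δ => (∫ t, ρ t : ℝ) * c.PF (pr f (abv θ1 θ δ)) (pr g φ) := by
  obtain ⟨b1, b2, hb, hs⟩ := slab hφ hφ'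
  have hu : 0 < -b2 / 4 := by linarith
  obtain ⟨θ2, θ3, h2, h3, e, s2, s3, e'⟩ := cutθ h1 hu
  have a1 := core hM hK c.hTP.tm hκ hf hg hρ hρ' h2 hθ hφ hφ'
  have a2 : Apx (fun δ L => c.t0 (triF κ f g ρ θ3 φ δ L)) fun _ => 0 := .of_lim (by
    filter_upwards [Ioc_mem_nhdsGT hu] with δ hδ
    refine side hF hκ.1 hf hg hρ h3 hφ hδ.1 (supp_dlt hρ' hδ.1 hδ.2) (.inl ?_)
    rintro t (ht | ht)
    · exact s3 ht
    · have := (hs ht).2
      show t < _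
      linarith)
  refine (a1.add a2).congr ?_ (.of_forall fun δ => by rw [e', add_zero])
  filter_upwards [Ioc_mem_nhdsGT hu] with δ hδ
  filter_upwards [eventually_gt_atTop (0 : ℝ)] with L hL
  have H : ∀ s ∈ tsupport (dlt δ ρ) ∪ tsupport θ2, ∀ t ∈ tsupport φ, t < s := by
    rintro s (h | h) t ht
    · linarith [(hs ht).2, (supp_dlt hρ' hδ.1 hδ.2 h).1]
    · linarith [(hs ht).2, show -3 * (-b2 / 4) ≤ s from s2 h]
  rw [triF_add hκ.1 hf hg hρ h1 h2 h3 e hφ hδ.1 hL, t0_add, triF_dec hκ.1 hf hg hρ h2 hφ hδ.1 hL,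
    t0_sub, t0_add, t0_add, t0_add, tq_lo c sm_xx hκ.1 hf hg hρ h2 hφ hδ.1 hL H,
    tq_lo c (sm_xi 0) hκ.1 (tst_xi hf 0) hg hρ h2 hφ hδ.1 hL H,
    tq_lo c (sm_xi 1) hκ.1 (tst_xi hf 1) hg hρ h2 hφ hδ.1 hL H,
    tq_lo c (sm_xi 0) hκ.1 hf (tst_xi hg 0) hρ h2 hφ hδ.1 hL H,
    tq_lo c (sm_xi 1) hκ.1 hf (tst_xi hg 1) hρ h2 hφ hδ.1 hL H]
  rfl

lemma supp_ng_lo (h : tsupport φ ⊆ Set.Ioi 0) : tsupport (ng φ) ⊆ Set.Iio 0 :=
  fun t ht => show t < 0 from neg_pos.1 (h (supp_ng ht))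

theorem PF_hi (h : T2 c) (hf : Tst f) (hg : Tst g) (h1 : Tst θ1) (hθ : Bump θ) (hφ : Tst φ)
    (hφ' : tsupport φ ⊆ Set.Ioi 0) {δ : ℝ} (hδ : 0 < δ) : c.PF (pr g φ) (pr f (blw θ1 θ δ)) =
      c.PF (pr (mj f) (abv (ng θ1) θ δ)) (pr (mj g) (ng φ)) := by
  rw [blw_eq θ1 hθ, PF_mir h hf hg (tst_ng (tst_abv (tst_ng h1) hθ hδ)) hφ
    (supp_ng_lo fun t ht => hδ.trans_le (supp_abv _ hθ hδ ht)) hφ', ng_ng]

theorem hi1 [Fact c.tp] (h : T2 c) (hF : FAR c) (hM : CONM c) (hK : CONK c) (hκ : Cut κ) (hf : Tst f)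
    (hg : Tst g) (hρ : Tst ρ) (hρ' : tsupport ρ ⊆ Set.Icc (-1 / 2) (1 / 2)) (h1 : Tst θ1)
    (hθ : Bump θ) (hφ : Tst φ) (hφ' : tsupport φ ⊆ Set.Ioi 0) :
    Apx (fun δ L => c.t0 (triF κ f g ρ θ1 φ δ L))
      fun δ => (∫ t, ρ t : ℝ) * c.PF (pr g φ) (pr f (blw θ1 θ δ)) := by
  obtain ⟨w, hw, hw'⟩ := h.mir Fact.out
  obtain ⟨b1, b2, hb, hs⟩ := slab' hφ hφ'
  have hu : 0 < b1 / 4 := by linarith
  obtain ⟨θ2, θ3, h2, h3, e, s2, s3, e'⟩ := cutθ (tst_ng h1) hu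
  have a1 := core hM hK hw (cut_mj hκ) (tst_mj hf) (tst_mj hg) (tst_ng hρ) (fun t ht => by
    obtain ⟨a, b⟩ := hρ' (supp_ng ht)
    constructor <;> linarith) h2 hθ (tst_ng hφ) (supp_ng_lo hφ')
  have a2 : Apx (fun δ L => c.t0 (triF κ f g ρ (ng θ3) φ δ L)) fun _ => 0 := .of_lim (by
    filter_upwards [Ioc_mem_nhdsGT hu] with δ hδ
    refine side hF hκ.1 hf hg hρ (tst_ng h3) hφ hδ.1 (supp_dlt hρ' hδ.1 hδ.2) (.inr ?_)
    rintro t (ht | ht)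
    · exact show b1 / 4 < t from neg_lt_neg_iff.1 (s3 (supp_ng ht))
    · have := (hs ht).1
      show _ < t
      linarith)
  refine (a1.add a2).congr ?_ ?_
  · filter_upwards [Ioc_mem_nhdsGT hu] with δ hδ
    filter_upwards [eventually_gt_atTop (0 : ℝ)] with L hL
    have g2 := tst_ng h2
    have H : ∀ s ∈ tsupport (dlt δ ρ) ∪ tsupport (ng θ2), ∀ t ∈ tsupport φ, s < t := by
      rintro s (h | h) t ht
      · linarith [(hs ht).1, (supp_dlt hρ' hδ.1 hδ.2 h).2]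
      · linarith [(hs ht).1, show -3 * (b1 / 4) ≤ -s from s2 (supp_ng h)]
    have key : ∀ {W : R2 → ℝ} {f g : P3 → ℝ}, ContDiff ℝ ∞ W → Tst f → Tst g →
        c.t0 (tq W κ f g ρ (ng θ2) φ δ L) =
          inner ℂ (w0 w (pairF W (mj κ) (mj f) (ng ρ) θ2 δ L)) (c.Th (pr (mj g) (ng φ))) := by
      intro W f g hW hf hg
      rw [tq_hi c hW hκ.1 hf hg hρ g2 hφ hδ.1 hL H, ← J_inner, J_pr h.jc hg hφ, ← J_w0 hw'
        (G := pairF W (mj κ) (mj f) (ng ρ) θ2 δ L) fun x y => ?_]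
      refine (sch_apply (dc_pf0 hW (tst_mj hκ.1) (tst_mj hf) (tst_ng hρ) h2 hδ.1 hL) _).trans ?_
      rw [show pairF W κ f ρ (ng θ2) δ L (jr x, jr y) = _ from
        sch_apply (dc_pf0 hW hκ.1 hf hρ g2 hδ.1 hL) _, ← pf0_jr, ng_ng]
    rw [triF_add hκ.1 hf hg hρ h1 g2 (tst_ng h3) (fun t => by
        have := e (-t)
        rwa [ng, neg_neg] at this) hφ hδ.1 hL, t0_add,
      triF_dec hκ.1 hf hg hρ g2 hφ hδ.1 hL, t0_sub, t0_add, t0_add, t0_add, key sm_xx hf hg,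
      key (sm_xi 0) (tst_xi hf 0) hg, key (sm_xi 1) (tst_xi hf 1) hg,
      key (sm_xi 0) hf (tst_xi hg 0), key (sm_xi 1) hf (tst_xi hg 1)]
    rfl
  · filter_upwards [self_mem_nhdsWithin] with δ hδ
    rw [PF_hi h hf hg h1 hθ hφ hφ' hδ, e', add_zero]
    congr 2
    exact (integral_neg_eq_self ρ volume).symm

end face

end Cont

end

end Vale.Agent.P352X
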