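import Vale.Agent.P352X.R.FAR
import Vale.Agent.P352X.Api1

/-!
# P352X, row CONT, part A: factorization of the faces (helper34)
-/

set_option linter.all false

open MeasureTheory Filter Topology
open scoped SchwartzMap ComplexConjugate ENNReal ContDiff

namespace Vale.Agent.P352X

open Vale.Agent.P352 Vale.Agent.P352.GF Vale.Agent.P352.BW Vale.Agent.P352.H246
open Vale.Agent.P352.H496 Vale.Agent.P352.H755 Vale.Agent.P352.H15
open UniformSpace (Completion)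
open Far

noncomputable section

namespace Cont

/-! ### iterated limits -/

/-- `a δ L - b δ` tends to zero, first `L → ∞`, then `δ → 0` -/
def Apx (a : ℝ → ℝ → ℂ) (b : ℝ → ℂ) : Prop :=
  ∀ η > 0, ∀ᶠ δ in 𝓝[>] (0 : ℝ), ∀ᶠ L in atTop, ‖a δ L - b δ‖ ≤ η

namespace Apx

variable {a a' : ℝ → ℝ → ℂ} {b b' : ℝ → ℂ}

lemma add (h : Apx a b) (h' : Apx a' b') :
    Apx (fun δ L => a δ L + a' δ L) fun δ => b δ + b' δ := fun η hη => by
  filter_upwards [h _ (half_pos hη), h' _ (half_pos hη)] with δ h1 h2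
  filter_upwards [h1, h2] with L h3 h4
  rw [add_sub_add_comm]
  linarith [norm_add_le (a δ L - b δ) (a' δ L - b' δ)]

lemma neg (h : Apx a b) : Apx (fun δ L => -a δ L) fun δ => -b δ := fun η hη => by
  filter_upwards [h _ hη] with δ h1
  filter_upwards [h1] with L h2
  rwa [neg_sub_neg, norm_sub_rev]

lemma sub (h : Apx a b) (h' : Apx a' b') :
    Apx (fun δ L => a δ L - a' δ L) fun δ => b δ - b' δ := by
  simpa only [sub_eq_add_neg] using h.add h'.neg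

lemma congr (h : Apx a b) (e : ∀ᶠ δ in 𝓝[>] (0 : ℝ), ∀ᶠ L in atTop, a' δ L = a δ L)
    (e' : ∀ᶠ δ in 𝓝[>] (0 : ℝ), b' δ = b δ) : Apx a' b' := fun η hη => by
  filter_upwards [h _ hη, e, e'] with δ h1 h2 h3
  filter_upwards [h1, h2] with L h4 h5
  rwa [h3, h5]

lemma of_lim (h : ∀ᶠ δ in 𝓝[>] (0 : ℝ), Tendsto (a δ) atTop (𝓝 (b δ))) : Apx a b :=
  fun η hη => h.mono fun δ h1 => (Metric.tendsto_nhds.1 h1 η hη).mono fun L h2 => by
    rw [← dist_eq_norm]; exact h2.le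

end Apx

/-! ### test functions -/

/-- `x_i f` -/
def xi (i : Fin 2) (f : P3 → ℝ) : P3 → ℝ := fun y => y.2 i * f y
/-- `|x|^2 f` -/
def xx (f : P3 → ℝ) : P3 → ℝ := fun y => d2 y.2 y.2 * f y

lemma tst_xi {f : P3 → ℝ} (hf : Tst f) (i : Fin 2) : Tst (xi i f) :=
  ⟨(((contDiff_apply ℝ ℝ i).comp contDiff_snd)).mul hf.1, hf.2.mul_left⟩

lemma tst_xx {f : P3 → ℝ} (hf : Tst f) : Tst (xx f) :=
  ⟨(smooth_d2 contDiff_snd contDiff_snd).mul hf.1, hf.2.mul_left⟩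

lemma tsupport_dlt (ρ : ℝ → ℝ) (δ : ℝ) : tsupport (dlt δ ρ) ⊆ {t | t / δ ∈ tsupport ρ} :=
  closure_minimal (fun t ht => subset_tsupport ρ fun h => ht (by rw [dlt, h, zero_div]))
    ((isClosed_tsupport ρ).preimage (by fun_prop))

lemma tst_dlt {ρ : ℝ → ℝ} (h : Tst ρ) {δ : ℝ} (hδ : 0 < δ) : Tst (dlt δ ρ) := by
  refine ⟨(h.1.comp (contDiff_id.div_const δ)).div_const δ, ?_⟩
  exact ((Homeomorph.mulRight₀ δ⁻¹ (inv_ne_zero hδ.ne')).isCompact_preimage.2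
    h.2.isCompact).of_isClosed_subset (isClosed_tsupport _) fun t ht => by
      have h1 : t / δ ∈ tsupport ρ := tsupport_dlt ρ δ ht
      rwa [div_eq_mul_inv] at h1

lemma supp_dlt {ρ : ℝ → ℝ} (h : tsupport ρ ⊆ Set.Icc (-1 / 2) (1 / 2)) {δ u : ℝ} (hδ : 0 < δ)
    (hu : δ ≤ u) : tsupport (dlt δ ρ) ⊆ Set.Ioo (-u) u := fun t ht => by
  obtain ⟨h1, h2⟩ := h (tsupport_dlt ρ δ ht)
  rw [le_div_iff₀ hδ] at h1
  rw [div_le_iff₀ hδ] at h2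
  constructor <;> linarith

/-- the step function `1 - θ` on `t > 0` -/
def stp (θ : ℝ → ℝ) (t : ℝ) : ℝ := if 0 < t then 1 - θ t else 0

lemma stp_lo {θ : ℝ → ℝ} (h : Bump θ) {t : ℝ} (ht : t ≤ 1) : stp θ t = 0 := by
  unfold stp
  split_ifs with h0
  · rw [h.2.2 t (by rwa [abs_of_pos h0]), sub_self]
  · rfl

lemma smooth_stp {θ : ℝ → ℝ} (h : Bump θ) : ContDiff ℝ ∞ (stp θ) :=
  contDiff_iff_contDiffAt.2 fun t => by
    rcases lt_or_ge 0 t with h0 | h0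
    · refine ((contDiff_const (c := (1 : ℝ))).sub h.1.1).contDiffAt.congr_of_eventuallyEq ?_
      filter_upwards [lt_mem_nhds h0] with s hs
      exact if_pos hs
    · refine (contDiffAt_const (c := 0)).congr_of_eventuallyEq ?_
      filter_upwards [gt_mem_nhds (h0.trans_lt one_pos)] with s hs
      exact stp_lo h hs.le

lemma abv_eq (θ1 θ : ℝ → ℝ) {δ : ℝ} (hδ : 0 < δ) :
    abv θ1 θ δ = fun t => θ1 t * stp θ (t / δ) := by
  funext t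
  simp only [abv, stp, div_pos_iff_of_pos_right hδ, mul_ite, mul_zero]

lemma tst_abv {θ1 θ : ℝ → ℝ} (h1 : Tst θ1) (h : Bump θ) {δ : ℝ} (hδ : 0 < δ) :
    Tst (abv θ1 θ δ) := by
  rw [abv_eq _ _ hδ]
  exact ⟨h1.1.mul ((smooth_stp h).comp (contDiff_id.div_const δ)), h1.2.mul_right⟩

lemma supp_abv (θ1 : ℝ → ℝ) {θ : ℝ → ℝ} (h : Bump θ) {δ : ℝ} (hδ : 0 < δ) :
    tsupport (abv θ1 θ δ) ⊆ Set.Ici δ := by
  rw [abv_eq _ _ hδ]
  refine closure_minimal (fun t ht => ?_) isClosed_Ici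
  by_contra h1
  exact right_ne_zero_of_mul ht (stp_lo h ((div_le_one hδ).2 (not_le.1 h1).le))

lemma in_pr {g : P3 → ℝ} {φ : ℝ → ℝ} (hg : Tst g) (hφ : Tst φ) {S : Set ℝ} (h : tsupport φ ⊆ S) :
    In {z | be z ∈ S} (pr g φ) :=
  ⟨isTest_dc (dc_pr hg hφ), (dc_pr hg hφ).2, fun z hz => h (tsupport_pr g φ hz).2⟩

/-- the function of `pairF` -/
def pf0 (W : R2 → ℝ) (κ f : P3 → ℝ) (ρ θ1 : ℝ → ℝ) (δ L : ℝ) (z : V × V) : ℂ :=
  ((W (tx z.1 - tx z.2) * (kL κ L (pl z.1) * dlt δ ρ (be z.1)) * (f (pl z.2) * θ1 (be z.2)) : ℝ) : ℂ)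

lemma pf0_eq (W : R2 → ℝ) (κ f : P3 → ℝ) (ρ θ1 : ℝ → ℝ) (δ L : ℝ) : pf0 W κ f ρ θ1 δ L = fun z =>
    (W (tx z.1 - tx z.2) : ℂ) * (pr (kL κ L) (dlt δ ρ) z.1 * pr f θ1 z.2) := by
  funext z
  simp only [pf0, pr]
  push_cast
  ring

lemma dc_two {f g : Fn} (hf : Dc f) (hg : Dc g) : Dc fun z : V × V => f z.1 * g z.2 := by
  refine ⟨(hf.1.comp contDiff_fst).mul (hg.1.comp contDiff_snd), ?_⟩
  refine HasCompactSupport.intro (hf.2.isCompact.prod hg.2.isCompact) fun z hz => ?_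
  by_contra h
  exact hz ⟨subset_tsupport _ (left_ne_zero_of_mul h), subset_tsupport _ (right_ne_zero_of_mul h)⟩

lemma tsupport_two (u : V × V → ℂ) (f g : Fn) :
    tsupport (fun z : V × V => u z * (f z.1 * g z.2)) ⊆ tsupport f ×ˢ tsupport g :=
  closure_minimal (fun z hz => ⟨subset_tsupport _ (left_ne_zero_of_mul (right_ne_zero_of_mul hz)),
    subset_tsupport _ (right_ne_zero_of_mul (right_ne_zero_of_mul hz))⟩)
    ((isClosed_tsupport f).prod (isClosed_tsupport g))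

section pair

variable {W : R2 → ℝ} {κ f : P3 → ℝ} {ρ θ1 : ℝ → ℝ} {δ L : ℝ}

lemma dc_pf0 (hW : ContDiff ℝ ∞ W) (hκ : Tst κ) (hf : Tst f) (hρ : Tst ρ) (h1 : Tst θ1)
    (hδ : 0 < δ) (hL : 0 < L) : Dc (pf0 W κ f ρ θ1 δ L) := by
  rw [pf0_eq]
  have h := dc_two (dc_pr (tst_kL hκ hL) (tst_dlt hρ hδ)) (dc_pr hf h1)
  exact ⟨(Complex.ofRealCLM.contDiff.comp (hW.comp ((smooth_tx.comp contDiff_fst).sub
    (smooth_tx.comp contDiff_snd)))).mul h.1, h.2.mul_left⟩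

lemma legs_pf0 {y : V} (hy : y ∈ legs (pf0 W κ f ρ θ1 δ L)) :
    be y ∈ tsupport (dlt δ ρ) ∪ tsupport θ1 := by
  rw [pf0_eq] at hy
  rcases hy with ⟨z, hz, rfl⟩ | ⟨z, hz, rfl⟩
  exacts [.inl (tsupport_pr _ _ (tsupport_two _ _ _ hz).1).2,
    .inr (tsupport_pr _ _ (tsupport_two _ _ _ hz).2).2]

end pair

lemma dc_tri' {G : V × V → ℂ} {f : Fn} (hG : Dc G) (hf : Dc f) :
    Dc fun z : V × V × V => G (z.2.1, z.1) * f z.2.2 := by
  have h := dc_tri hG hf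
  exact ⟨h.1.comp (sw1.trans sw2).contDiff, h.2.comp_homeomorph (sw1.trans sw2).toHomeomorph⟩

/-! ### factorization -/

variable {D : Type*} [NormedAddCommGroup D] [InnerProductSpace ℂ D] (c : Ctx D)

lemma Th_eq (f : Fn) :
    c.Th f = ∑ n, ((eta n : ℝ) : ℂ) • ((c.T n n f c.Q.vac : D) : Completion D) := by
  simp only [Ctx.Th, Ctx.Thf, GF.tr]
  change Completion.toComplL (𝕜 := ℂ) _ = _
  simp only [map_sum, map_smul]
  rfl

lemma Th_add {f g : Fn} (hf : IsTest f) (hg : IsTest g) :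
    c.Th (fun x => f x + g x) = c.Th f + c.Th g := by
  have e : ∀ n, c.T n n (fun x => f x + g x) c.Q.vac = c.T n n f c.Q.vac + c.T n n g c.Q.vac :=
    fun n => by
      have := c.Q.lin _ f g 1 c.Q.vac (c.Q.bose_fld _ (c.hT.bose n n)) hf hg
      simpa only [one_mul, one_smul] using this
  simp only [Th_eq, e, Completion.coe_add, smul_add, Finset.sum_add_distrib]

/-- the third leg is not later than the two others -/
theorem fac_lo [Fact c.tp] (f : Sch) (G G' : S2) (F : S3) (e : ∀ x y z, F (x, y, z) = G (y, x) * f z)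
    (e' : ∀ x, G' x = star (G x)) (h : Late (legs G) (tsupport f)) :
    c.t0 F = inner ℂ (w0 c.wm G') (c.Th (ev f)) := by
  have key : ∀ I J K, c.t I J K F =
      inner ℂ (c.wm J I G') ((c.T K.1 K.2 (ev f) c.Q.vac : D) : Completion D) := by
    intro I J K
    rw [c.hTP.swap1 I J K F (SchwartzMap.compCLMOfContinuousLinearEquiv ℂ sw1 F) fun _ _ _ => rfl]
    exact c.hTP.fac3 J I K G G' f _ (fun x y z => e y x z) e' h
  rw [w0]
  simp only [sum_inner, inner_smul_left]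
  simp only [Ctx.t0, key, Th_eq, inner_sum, inner_smul_right, Complex.conj_ofReal, Finset.mul_sum]
  rw [Finset.sum_comm]
  refine Finset.sum_congr rfl fun k _ => ?_
  rw [Finset.sum_comm]
  refine Finset.sum_congr rfl fun l _ => Finset.sum_congr rfl fun m _ =>
    Finset.sum_congr rfl fun n _ => ?_
  push_cast
  ring

/-- the third leg is not earlier than the two others -/
theorem fac_hi [Fact c.tp] (f : Sch) (G : S2) (F : S3) (e : ∀ x y z, F (x, y, z) = G (y, x) * f z)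
    (h : Late (tsupport f) (legs G)) :
    c.t0 F = inner ℂ (c.Th (bar (ev f))) (w0 c.wp G) := by
  have key : ∀ I J K, c.t I J K F =
      inner ℂ ((c.T K.1 K.2 (bar (ev f)) c.Q.vac : D) : Completion D) (c.wp J I G) := by
    intro I J K
    rw [c.hTP.swap1 I J K F (SchwartzMap.compCLMOfContinuousLinearEquiv ℂ sw1 F) fun _ _ _ => rfl,
      c.hTP.swap2 J I K _ (SchwartzMap.compCLMOfContinuousLinearEquiv ℂ (sw2.trans sw1) F)
        fun _ _ _ => rfl,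
      c.hTP.swap1 J K I _ (SchwartzMap.compCLMOfContinuousLinearEquiv ℂ
        (sw1.trans (sw2.trans sw1)) F) fun _ _ _ => rfl]
    exact c.hTP.fac1 K J I f G _ (fun x y z => (e z y x).trans (mul_comm _ _)) h
  rw [w0]
  simp only [inner_sum, inner_smul_right]
  simp only [Ctx.t0, key, Th_eq, sum_inner, inner_smul_left, Complex.conj_ofReal, Finset.mul_sum]
  rw [Finset.sum_comm]
  refine Finset.sum_congr rfl fun k _ => ?_
  rw [Finset.sum_comm]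
  refine Finset.sum_congr rfl fun l _ => Finset.sum_congr rfl fun m _ =>
    Finset.sum_congr rfl fun n _ => ?_
  push_cast
  ring

lemma t0_smul (a : ℂ) (F : S3) : c.t0 (a • F) = a * c.t0 F := by
  simp only [Ctx.t0, map_smul, smul_eq_mul, Finset.mul_sum, mul_left_comm a]

lemma t0_sub (F G : S3) : c.t0 (F - G) = c.t0 F - c.t0 G := by
  simp only [Ctx.t0, map_sub, mul_sub, Finset.sum_sub_distrib]

/-- the pair of the first two legs times the third leg -/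
def tq (W : R2 → ℝ) (κ f g : P3 → ℝ) (ρ θ1 φ : ℝ → ℝ) (δ L : ℝ) : S3 :=
  sch fun z : V × V × V => pf0 W κ f ρ θ1 δ L (z.2.1, z.1) * pr g φ z.2.2

lemma sm_xx : ContDiff ℝ ∞ fun x : R2 => d2 x x := smooth_d2 contDiff_id contDiff_id
lemma sm_xi (i : Fin 2) : ContDiff ℝ ∞ fun x : R2 => x i := contDiff_apply ℝ ℝ i

section tri

variable {W : R2 → ℝ} {κ f g : P3 → ℝ} {ρ θ1 φ : ℝ → ℝ} {δ L : ℝ}

lemma tq_apply (hW : ContDiff ℝ ∞ W) (hκ : Tst κ) (hf : Tst f) (hg : Tst g) (hρ : Tst ρ)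
    (h1 : Tst θ1) (hφ : Tst φ) (hδ : 0 < δ) (hL : 0 < L) (z : V × V × V) :
    tq W κ f g ρ θ1 φ δ L z = pf0 W κ f ρ θ1 δ L (z.2.1, z.1) * pr g φ z.2.2 :=
  sch_apply (dc_tri' (dc_pf0 hW hκ hf hρ h1 hδ hL) (dc_pr hg hφ)) z

lemma triF_apply (hκ : Tst κ) (hf : Tst f) (hg : Tst g) (hρ : Tst ρ) (h1 : Tst θ1) (hφ : Tst φ)
    (hδ : 0 < δ) (hL : 0 < L) (z : V × V × V) : triF κ f g ρ θ1 φ δ L z =
      ((d2 (tx z.2.1 - tx z.1) (tx z.2.1 - tx z.2.2) * (f (pl z.1) * θ1 (be z.1)) *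
        (kL κ L (pl z.2.1) * dlt δ ρ (be z.2.1)) * (g (pl z.2.2) * φ (be z.2.2)) : ℝ) : ℂ) := by
  have h := dc_tri (dc_two (dc_pr hf h1) (dc_pr hg hφ)) (dc_pr (tst_kL hκ hL) (tst_dlt hρ hδ))
  have s : ContDiff ℝ ∞ fun z : V × V × V =>
      ((d2 (tx z.2.1 - tx z.1) (tx z.2.1 - tx z.2.2) : ℝ) : ℂ) :=
    Complex.ofRealCLM.contDiff.comp (smooth_d2 (by fun_prop) (by fun_prop))
  refine sch_apply ?_ z
  have h' : Dc fun z : V × V × V => ((d2 (tx z.2.1 - tx z.1) (tx z.2.1 - tx z.2.2) : ℝ) : ℂ) *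
      (pr f θ1 z.1 * pr g φ z.2.2 * pr (kL κ L) (dlt δ ρ) z.2.1) := ⟨s.mul h.1, h.2.mul_left⟩
  convert h' using 2 with z
  simp only [pr]
  push_cast
  ring

/-- the weight is `|x21|^2 + x21.(x1 - x3)` -/
lemma triF_dec (hκ : Tst κ) (hf : Tst f) (hg : Tst g) (hρ : Tst ρ) (h1 : Tst θ1) (hφ : Tst φ)
    (hδ : 0 < δ) (hL : 0 < L) : triF κ f g ρ θ1 φ δ L =
      tq (fun x => d2 x x) κ f g ρ θ1 φ δ L +
      (tq (fun x => x 0) κ (xi 0 f) g ρ θ1 φ δ L + tq (fun x => x 1) κ (xi 1 f) g ρ θ1 φ δ L) -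
      (tq (fun x => x 0) κ f (xi 0 g) ρ θ1 φ δ L + tq (fun x => x 1) κ f (xi 1 g) ρ θ1 φ δ L) := by
  ext z
  simp only [SchwartzMap.add_apply, SchwartzMap.sub_apply]
  rw [triF_apply hκ hf hg hρ h1 hφ hδ hL, tq_apply sm_xx hκ hf hg hρ h1 hφ hδ hL,
    tq_apply (sm_xi 0) hκ (tst_xi hf 0) hg hρ h1 hφ hδ hL,
    tq_apply (sm_xi 1) hκ (tst_xi hf 1) hg hρ h1 hφ hδ hL,
    tq_apply (sm_xi 0) hκ hf (tst_xi hg 0) hρ h1 hφ hδ hL,
    tq_apply (sm_xi 1) hκ hf (tst_xi hg 1) hρ h1 hφ hδ hL]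
  simp only [pf0, pr, xi, d2, pl_2, Pi.sub_apply]
  push_cast
  ring

lemma triF_add {θ2 θ3 : ℝ → ℝ} (hκ : Tst κ) (hf : Tst f) (hg : Tst g) (hρ : Tst ρ) (h1 : Tst θ1)
    (h2 : Tst θ2) (h3 : Tst θ3) (e : ∀ t, θ1 t = θ2 t + θ3 t) (hφ : Tst φ) (hδ : 0 < δ)
    (hL : 0 < L) : triF κ f g ρ θ1 φ δ L = triF κ f g ρ θ2 φ δ L + triF κ f g ρ θ3 φ δ L := by
  ext z
  rw [SchwartzMap.add_apply, triF_apply hκ hf hg hρ h1 hφ hδ hL,
    triF_apply hκ hf hg hρ h2 hφ hδ hL, triF_apply hκ hf hg hρ h3 hφ hδ hL, e]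
  push_cast
  ring

lemma late_be {A B : Set V} (h : ∀ x ∈ A, ∀ y ∈ B, be y < be x) : Late A B :=
  late_iff.2 fun x hx y hy _ a => absurd (h x hx y hy) (by linarith)

lemma tq_lo [Fact c.tp] (hW : ContDiff ℝ ∞ W) (hκ : Tst κ) (hf : Tst f) (hg : Tst g) (hρ : Tst ρ)
    (h1 : Tst θ1) (hφ : Tst φ) (hδ : 0 < δ) (hL : 0 < L)
    (h : ∀ s ∈ tsupport (dlt δ ρ) ∪ tsupport θ1, ∀ t ∈ tsupport φ, t < s) :
    c.t0 (tq W κ f g ρ θ1 φ δ L) = inner ℂ (w0 c.wm (pairF W κ f ρ θ1 δ L)) (c.Th (pr g φ)) := by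
  have hp := dc_pf0 hW hκ hf hρ h1 hδ hL
  have h3 := dc_pr hg hφ
  rw [fac_lo c (sch (pr g φ)) (sch (pf0 W κ f ρ θ1 δ L)) (sch (pf0 W κ f ρ θ1 δ L)) _
    (fun x y z => by rw [tq_apply hW hκ hf hg hρ h1 hφ hδ hL, sch_apply hp, sch_apply h3])
    (fun x => by rw [sch_apply hp, pf0, Complex.star_def, Complex.conj_ofReal])
    (by
      rw [sch_coe hp, sch_coe h3]
      exact late_be fun x hx y hy => h _ (legs_pf0 hx) _ (tsupport_pr _ _ hy).2), ev, sch_coe h3]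
  rfl

lemma tq_hi [Fact c.tp] (hW : ContDiff ℝ ∞ W) (hκ : Tst κ) (hf : Tst f) (hg : Tst g) (hρ : Tst ρ)
    (h1 : Tst θ1) (hφ : Tst φ) (hδ : 0 < δ) (hL : 0 < L)
    (h : ∀ s ∈ tsupport (dlt δ ρ) ∪ tsupport θ1, ∀ t ∈ tsupport φ, s < t) :
    c.t0 (tq W κ f g ρ θ1 φ δ L) = inner ℂ (c.Th (pr g φ)) (w0 c.wp (pairF W κ f ρ θ1 δ L)) := by
  have hp := dc_pf0 hW hκ hf hρ h1 hδ hL
  have h3 := dc_pr hg hφ
  rw [fac_hi c (sch (pr g φ)) (sch (pf0 W κ f ρ θ1 δ L)) _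
    (fun x y z => by rw [tq_apply hW hκ hf hg hρ h1 hφ hδ hL, sch_apply hp, sch_apply h3])
    (by
      rw [sch_coe hp, sch_coe h3]
      exact late_be fun x hx y hy => h _ (legs_pf0 hy) _ (tsupport_pr _ _ hx).2), ev, sch_coe h3,
    bar_pr]
  rfl

end tri

/-! ### the sum of the moments -/

lemma PF_pr (f g : P3 → ℝ) (α β : ℝ → ℝ) : c.PF (pr f α) (pr g β) =
    inner ℂ (c.Th (pr f α)) (gen c.SK (c.Th (pr g β))) -
    ∑ i, (inner ℂ (c.Th (pr (xi i f) α)) (gen (Mi c.Q i) (c.Th (pr g β))) +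
      inner ℂ (c.Th (pr f α)) (gen (Mi c.Q i) (c.Th (pr (xi i g) β)))) +
    ∑ i, inner ℂ (c.Th (pr (xi i f) α)) (gen (Pa c.Q) (c.Th (pr (xi i g) β))) := by
  have e : ∀ (i : Fin 2) (f : P3 → ℝ) (α : ℝ → ℝ),
      (fun z => ((tx z i : ℝ) : ℂ) * pr f α z) = pr (xi i f) α := fun i f α => by
    funext z
    simp only [pr, xi, pl_2]
    push_cast
    ring
  simp only [Ctx.PF, e, bar_pr]

/-- the combination of the moments -/
def SS (w : I2 → I2 → S2 →L[ℂ] Completion D) (κ f g : P3 → ℝ) (ρ θ1 φ : ℝ → ℝ) (δ L : ℝ) : ℂ :=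
  inner ℂ (w0 w (pairF (fun x => d2 x x) κ f ρ θ1 δ L)) (c.Th (pr g φ)) +
    (inner ℂ (w0 w (pairF (fun x => x 0) κ (xi 0 f) ρ θ1 δ L)) (c.Th (pr g φ)) +
      inner ℂ (w0 w (pairF (fun x => x 1) κ (xi 1 f) ρ θ1 δ L)) (c.Th (pr g φ))) -
    (inner ℂ (w0 w (pairF (fun x => x 0) κ f ρ θ1 δ L)) (c.Th (pr (xi 0 g) φ)) +
      inner ℂ (w0 w (pairF (fun x => x 1) κ f ρ θ1 δ L)) (c.Th (pr (xi 1 g) φ)))

variable {c}

theorem core (hM : CONM c) (hK : CONK c) {w : I2 → I2 → S2 →L[ℂ] Completion D}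
    (hw : TP2 c.Q c.T false w) {κ f g : P3 → ℝ} {ρ θ1 θ φ : ℝ → ℝ} (hκ : Cut κ) (hf : Tst f)
    (hg : Tst g) (hρ : Tst ρ) (hρ' : tsupport ρ ⊆ Set.Icc (-1 / 2) (1 / 2)) (h1 : Tst θ1)
    (hθ : Bump θ) (hφ : Tst φ) (hφ' : tsupport φ ⊆ Set.Iio 0) :
    Apx (SS c w κ f g ρ θ1 φ) fun δ => (∫ t, ρ t : ℝ) * c.PF (pr f (abv θ1 θ δ)) (pr g φ) := by
  have i1 := in_pr hg hφ hφ'
  have i2 := fun i => in_pr (tst_xi hg i) hφ hφ'
  have k : Apx _ _ := hK w κ f ρ θ1 θ _ hw hκ hf hρ hρ' h1 hθ i1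
  have m1 : ∀ i, Apx _ _ := fun i => hM w κ (xi i f) ρ θ1 θ _ i hw hκ (tst_xi hf i) hρ hρ' h1 hθ i1
  have m2 : ∀ i, Apx _ _ := fun i => hM w κ f ρ θ1 θ _ i hw hκ hf hρ hρ' h1 hθ (i2 i)
  refine ((k.add ((m1 0).add (m1 1))).sub ((m2 0).add (m2 1))).congr
    (.of_forall fun δ => .of_forall fun L => rfl) ?_
  filter_upwards [self_mem_nhdsWithin] with δ hδ
  have ha := tst_abv h1 hθ hδ
  have e : c.Th (pr (fun y => d2 y.2 y.2 * f y) (abv θ1 θ δ)) =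
      c.Th (pr (fun y => y.2 0 * xi 0 f y) (abv θ1 θ δ)) +
      c.Th (pr (fun y => y.2 1 * xi 1 f y) (abv θ1 θ δ)) := by
    refine Eq.trans ?_ (Th_add c (isTest_dc (dc_pr (tst_xi (tst_xi hf 0) 0) ha))
      (isTest_dc (dc_pr (tst_xi (tst_xi hf 1) 1) ha)))
    congr 1
    funext z
    simp only [pr, xi, d2]
    push_cast
    ring
  rw [PF_pr, Ctx.AbK, e, inner_add_left]
  simp only [Fin.sum_univ_two]
  unfold xi
  ring

/-- `p(z1, z3) f θ1 (z1) g φ (z3)` -/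
def ps (p : V × V → ℝ) (f g : P3 → ℝ) (θ1 φ : ℝ → ℝ) (z : V × V) : ℂ :=
  (p z : ℂ) * (pr f θ1 z.1 * pr g φ z.2)

lemma dc_ps {p : V × V → ℝ} {f g : P3 → ℝ} {θ1 φ : ℝ → ℝ} (hp : ContDiff ℝ ∞ p) (hf : Tst f)
    (hg : Tst g) (h1 : Tst θ1) (hφ : Tst φ) : Dc (ps p f g θ1 φ) :=
  have h0 := dc_two (dc_pr hf h1) (dc_pr hg hφ)
  ⟨(Complex.ofRealCLM.contDiff.comp hp).mul h0.1, h0.2.mul_left⟩

lemma sm_p1 (i : Fin 2) : ContDiff ℝ ∞ fun z : V × V => tx z.1 i + tx z.2 i := by fun_prop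
lemma sm_p2 : ContDiff ℝ ∞ fun z : V × V => d2 (tx z.1) (tx z.2) := by fun_prop

lemma triF_dec' {κ f g : P3 → ℝ} {ρ θ1 φ : ℝ → ℝ} {δ L : ℝ} (hκ : Tst κ) (hf : Tst f)
    (hg : Tst g) (hρ : Tst ρ) (h1 : Tst θ1) (hφ : Tst φ) (hδ : 0 < δ) (hL : 0 < L) :
    triF κ f g ρ θ1 φ δ L = (L : ℂ) • tri (ps (fun _ => 1) f g θ1 φ) (xx κ) (dlt δ ρ) L -
      ((Real.sqrt L : ℂ) • tri (ps (fun z => tx z.1 0 + tx z.2 0) f g θ1 φ) (xi 0 κ) (dlt δ ρ) L +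
      (Real.sqrt L : ℂ) • tri (ps (fun z => tx z.1 1 + tx z.2 1) f g θ1 φ) (xi 1 κ) (dlt δ ρ) L) +
      tri (ps (fun z => d2 (tx z.1) (tx z.2)) f g θ1 φ) κ (dlt δ ρ) L := by
  have hd := tst_dlt hρ hδ
  ext z
  rw [SchwartzMap.add_apply, SchwartzMap.sub_apply, SchwartzMap.add_apply, SchwartzMap.smul_apply,
    SchwartzMap.smul_apply, SchwartzMap.smul_apply, triF_apply hκ hf hg hρ h1 hφ hδ hL,
    sch_apply (dc_tri (dc_ps contDiff_const hf hg h1 hφ) (dc_pr (tst_kL (tst_xx hκ) hL) hd)),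
    sch_apply (dc_tri (dc_ps (sm_p1 0) hf hg h1 hφ) (dc_pr (tst_kL (tst_xi hκ 0) hL) hd)),
    sch_apply (dc_tri (dc_ps (sm_p1 1) hf hg h1 hφ) (dc_pr (tst_kL (tst_xi hκ 1) hL) hd)),
    sch_apply (dc_tri (dc_ps sm_p2 hf hg h1 hφ) (dc_pr (tst_kL hκ hL) hd))]
  obtain ⟨s, hs, rfl⟩ : ∃ s : ℝ, 0 < s ∧ L = s * s :=
    ⟨_, Real.sqrt_pos.2 hL, (Real.mul_self_sqrt hL.le).symm⟩
  have hs' : (s : ℂ) ≠ 0 := Complex.ofReal_ne_zero.2 hs.ne'
  simp only [ps, pr, kL, xi, xx, d2, pl_1, pl_2, Real.sqrt_mul_self hs.le, Pi.sub_apply,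
    Pi.smul_apply, smul_eq_mul]
  push_cast
  field_simp
  ring

/-- both legs on one side -/
theorem side (hF : FAR c) {κ f g : P3 → ℝ} {ρ θ1 φ : ℝ → ℝ} {δ u : ℝ} (hκ : Tst κ) (hf : Tst f)
    (hg : Tst g) (hρ : Tst ρ) (h1 : Tst θ1) (hφ : Tst φ) (hδ : 0 < δ)
    (hs : tsupport (dlt δ ρ) ⊆ Set.Ioo (-u) u)
    (h : tsupport θ1 ∪ tsupport φ ⊆ Set.Iio (-u) ∨ tsupport θ1 ∪ tsupport φ ⊆ Set.Ioi u) :
    Tendsto (fun L => c.t0 (triF κ f g ρ θ1 φ δ L)) atTop (𝓝 0) := by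
  have key : ∀ (κ' : P3 → ℝ) (p : V × V → ℝ), Tst κ' → ContDiff ℝ ∞ p →
      Tendsto (fun L : ℝ => (L : ℂ) * c.t0 (tri (ps p f g θ1 φ) κ' (dlt δ ρ) L)) atTop (𝓝 0) :=
    fun κ' p hκ' hp => by
      refine hF.side u κ' _ _ hκ' (tst_dlt hρ hδ) (dc_ps hp hf hg h1 hφ) hs
        (h.imp (fun h z hz => ?_) fun h z hz => ?_) <;>
      exact ⟨h (.inl (tsupport_pr _ _ (tsupport_two _ _ _ hz).1).2),
        h (.inr (tsupport_pr _ _ (tsupport_two _ _ _ hz).2).2)⟩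
  have l1 : Tendsto (fun L : ℝ => (((Real.sqrt L)⁻¹ : ℝ) : ℂ)) atTop (𝓝 0) :=
    (Complex.continuous_ofReal.tendsto 0).comp
      (tendsto_inv_atTop_zero.comp Real.tendsto_sqrt_atTop)
  have l2 : Tendsto (fun L : ℝ => ((L⁻¹ : ℝ) : ℂ)) atTop (𝓝 0) :=
    (Complex.continuous_ofReal.tendsto 0).comp tendsto_inv_atTop_zero
  have := ((key _ _ (tst_xx hκ) (contDiff_const (c := 1))).sub
    ((l1.mul (key _ _ (tst_xi hκ 0) (sm_p1 0))).add (l1.mul (key _ _ (tst_xi hκ 1) (sm_p1 1))))).add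
    (l2.mul (key _ _ hκ sm_p2))
  rw [mul_zero, add_zero, add_zero, sub_zero] at this
  refine this.congr' ?_
  filter_upwards [eventually_gt_atTop (0 : ℝ)] with L hL
  rw [triF_dec' hκ hf hg hρ h1 hφ hδ hL, t0_add, t0_sub, t0_add, t0_smul, t0_smul, t0_smul,
    ← mul_assoc, ← mul_assoc, ← mul_assoc, ← Complex.ofReal_mul, ← Complex.ofReal_mul,
    inv_mul_cancel₀ hL.ne', inv_mul_eq_div, Real.div_sqrt, Complex.ofReal_one, one_mul]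

end Cont

end

end Vale.Agent.P352X
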